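import Vale.Agent.P227.M.LIN.H1Pt
import Vale.Agent.P227.M.LIN.H1Top

namespace Vale.Agent.P227.Int899
open Vale.Agent.P227.M Vale.Agent.P227.M.LIN

theorem stmtH1 : StmtH1 := H1T.stmtH1_of fun _ _ _ _ _ _ h => by
  obtain ⟨T1, hT, H⟩ := pt_bound h
  exact ⟨T1, hT, fun R hR => H R (by linarith)⟩

end Vale.Agent.P227.Int899
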