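import Vale.Agent.P227.M.Top.Most
import Vale.Agent.P227.M.ID.XKey
import Vale.Agent.P227.M.SC2.MargN
import Vale.Agent.P227.M.SC.HeatDone
import Vale.Agent.P227.M.LIN.ESA
import Vale.Agent.P227.Int899.H1

namespace Vale.Agent.P227.Int899
open Vale.Agent.P227.M

theorem q1 : StmtQ1 :=
  Top.q1_of_four (HL.stmtSC_of_heat SC.stmtHeat) X.stmtKey LIN.E456.stmtESA stmtH1

end Vale.Agent.P227.Int899
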